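import Vale.Agent.N110.Main

/-! # P110: skew-symmetric ultraflat Littlewood polynomials -/

open Finset Filter

namespace Vale.Agent.Results.P110.A0SkewSymmetric

/-- There is an ultraflat sequence with one skew-symmetric Littlewood polynomial of each odd length;
its merit factor tends to infinity. -/
theorem result :
    ∃ ε : ℕ → ℕ → ℝ, (∀ n k, ε n k = 1 ∨ ε n k = -1) ∧
      (∀ n, ∀ l ≤ n, ε n (n + l) = (-1) ^ l * ε n (n - l)) ∧
      TendstoUniformlyOn
        (fun n (z : ℂ) => ‖∑ k ∈ range (2 * n + 1), (ε n k : ℂ) * z ^ k‖ / √(2 * n + 1))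
        (fun _ => 1) atTop (Metric.sphere 0 1) ∧
      Tendsto (fun n : ℕ => (2 * n + 1 : ℝ) ^ 2 / (2 * ∑ k ∈ Ico 1 (2 * n + 1),
        (∑ j ∈ range (2 * n + 1 - k), ε n j * ε n (j + k)) ^ 2)) atTop atTop := by
  obtain ⟨ε, h1, h2, h3⟩ := Vale.Agent.N110.skew_seq
  have hs : ∀ n : ℕ, 0 < √((2 * n + 1 : ℕ) : ℝ) := fun n => Real.sqrt_pos.2 (by positivity)
  have hU : TendstoUniformlyOn (fun n (z : ℂ) =>
      ‖∑ k ∈ range (2 * n + 1), (ε n k : ℂ) * z ^ k‖ / √(2 * n + 1 : ℕ))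
      (fun _ => 1) atTop (Metric.sphere 0 1) := by
    rw [Metric.tendstoUniformlyOn_iff]
    intro c hc
    obtain ⟨n₀, h⟩ := h3 (c / 2) (by positivity)
    refine eventually_atTop.2 ⟨n₀, fun n hn z hz => ?_⟩
    rw [Real.dist_eq, abs_sub_comm, div_sub_one (hs n).ne', abs_div, abs_of_pos (hs n),
      div_lt_iff₀ (hs n)]
    exact (h n hn z (by simpa using hz)).trans_lt (by nlinarith [hs n])
  refine ⟨ε, h1, h2, by exact_mod_cast hU, ?_⟩
  · refine tendsto_atTop.2 fun b => ?_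
    obtain ⟨m, hm⟩ := exists_nat_ge b
    have hm0 : (0 : ℝ) ≤ m := m.cast_nonneg
    obtain ⟨n₀, h⟩ := h3 (1 / (30 * (m + 1))) (by positivity)
    refine eventually_atTop.2 ⟨n₀ + 1, fun n hn => hm.trans ?_⟩
    set c : ℝ := 1 / (30 * (m + 1)) with hc
    have hc0 : 0 < c := by positivity
    have hc1 : c * (30 * (m + 1)) = 1 := one_div_mul_cancel (by positivity)
    have h4 := Vale.Agent.N110.merit (N := 2 * n + 1) (h1 n) (B := (1 + c) * √(2 * n + 1 : ℕ))
      (by positivity) fun z hz => by linarith [(abs_le.1 (h n (by omega) z hz)).2]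
    rw [mul_pow, show √((2 * n + 1 : ℕ) : ℝ) ^ 4 = (√((2 * n + 1 : ℕ) : ℝ) ^ 2) ^ 2 by ring,
      Real.sq_sqrt (by positivity)] at h4
    have h5 : 0 < ∑ k ∈ Ico 1 (2 * n + 1),
        (∑ j ∈ range (2 * n + 1 - k), ε n j * ε n (j + k)) ^ 2 := by
      refine Finset.sum_pos' (fun _ _ => sq_nonneg _) ⟨2 * n, by simp; omega, ?_⟩
      rw [Nat.add_sub_cancel_left, Finset.sum_range_one]
      rcases h1 n 0 with a | a <;> rcases h1 n (0 + 2 * n) with a' | a' <;> rw [a, a'] <;> norm_num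
    have h6 : (1 + c) ^ 4 ≤ 1 + 15 * c := by
      have : c ≤ 1 := by nlinarith
      nlinarith [mul_pos hc0 hc0, pow_le_one₀ (n := 2) hc0.le this]
    rw [le_div_iff₀ (by positivity)]
    push_cast at h4
    have h7 := mul_le_mul_of_nonneg_right h6 (sq_nonneg (2 * n + 1 : ℝ))
    have h8 : (∑ k ∈ Ico 1 (2 * n + 1), (∑ j ∈ range (2 * n + 1 - k), ε n j * ε n (j + k)) ^ 2)
      ≤ 15 * c * (2 * n + 1 : ℝ) ^ 2 := by linarith
    nlinarith [mul_le_mul_of_nonneg_left h8 (show (0 : ℝ) ≤ m + 1 by positivity)]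

end Vale.Agent.Results.P110.A0SkewSymmetric
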